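import Vale.Agent.P089.H499.Main

/-!
# P089: families of graphs of fast growth (helper821)
-/

set_option autoImplicit false

namespace Vale.Agent.P089

/-- The family of coloured graphs together with the codes, the sizes growing faster than any
geometric sequence. -/
theorem family_fast (hE : ExpanderStatement) (hC : ColourStatement) :
    ∃ (q k D c e d K : ℕ) (F : Fam q) (C' C : Codes k F),
    20 ≤ K ∧ q ≤ k ∧ 0 < e ∧ 0 < d ∧ F.Coloured K ∧ F.Expander D c e ∧ F.SmallSets K (8 * d) ∧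
    (∀ m, C' m ≤ C m) ∧ (∀ m, F.pat k m ∈ C' m) ∧
    (∀ m, Module.finrank (ZMod 2) (C m) = Module.finrank (ZMod 2) (C' m) + 1) ∧
    (∀ m, CodeOnto d (C' m)) ∧ (∀ m, CodeDist e (C m)) ∧
    (∀ m, Module.finrank (ZMod 2) (C m) ≤ 3 * F.n m) ∧
    (∀ m, 2 * F.n m ≤ Module.finrank (ZMod 2) (C' m)) ∧
    (∀ m, m + 4 * (m + 4) * F.n m ≤ F.n (m + 1)) := by
  obtain ⟨D, c, e, hD, hc, he, hN⟩ := hE
  obtain ⟨K₀, hK₀⟩ := smallStatement D
  obtain ⟨q, g₀, hcol⟩ := hC D c (max K₀ 20) (by positivity)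
  obtain ⟨k₀, hk₀⟩ := codeStatement' e q he
  obtain ⟨d, N, hd, hcode⟩ := hk₀ (max k₀ q) (le_max_left _ _)
  obtain ⟨g₁, hg₁⟩ := hK₀ (max K₀ 20) (le_max_left _ _) (8 * d)
  have hex : ∀ N, ∃ G : Family.Gr, G.Good D c e N := by
    intro N
    obtain ⟨n, h1, X, h2, h3, ⟨g, h4, h5, h6⟩, h7, h8⟩ := hN N
    exact ⟨⟨n, X, g⟩, ⟨h1, h4, h2, h3, h5, h6, h7, h8⟩⟩
  choose f hf using hex
  set N₀ := max (max g₀ g₁) (max N 2) with hN₀
  let s : ℕ → Family.Gr := fun m => Nat.rec (f N₀)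
    (fun m G => f (max N₀ (max (G.g + 1) (m + 4 * (m + 4) * G.n)))) m
  have hs0 : s 0 = f N₀ := rfl
  have hs1 : ∀ m, s (m + 1) =
      f (max N₀ (max ((s m).g + 1) (m + 4 * (m + 4) * (s m).n))) := fun _ => rfl
  have hgood : ∀ m, (s m).Good D c e N₀ := by
    rintro (_ | m)
    · rw [hs0]
      exact hf N₀
    · rw [hs1]
      have h := hf (max N₀ (max ((s m).g + 1) (m + 4 * (m + 4) * (s m).n)))
      exact ⟨(le_max_left _ _).trans h.n_le, (le_max_left _ _).trans h.g_le, h.conn, h.deg,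
        h.girth, h.size, h.expand, h.sparse⟩
  have hgstep : ∀ m, (s m).g < (s (m + 1)).g := by
    intro m
    rw [hs1]
    exact lt_of_lt_of_le (Nat.lt_succ_self _) (((le_max_left _ _).trans (le_max_right _ _)).trans
      (hf (max N₀ (max ((s m).g + 1) (m + 4 * (m + 4) * (s m).n)))).g_le)
  have hnstep : ∀ m, m + 4 * (m + 4) * (s m).n ≤ (s (m + 1)).n := by
    intro m
    rw [hs1]
    exact ((le_max_right _ _).trans (le_max_right _ _)).trans
      (hf (max N₀ (max ((s m).g + 1) (m + 4 * (m + 4) * (s m).n)))).n_le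
  have hN1 : g₀ ≤ N₀ := (le_max_left _ _).trans (le_max_left _ _)
  have hN2 : g₁ ≤ N₀ := (le_max_right _ _).trans (le_max_left _ _)
  have hN3 : N ≤ N₀ := (le_max_left _ _).trans (le_max_right _ _)
  have hN4 : 2 ≤ N₀ := (le_max_right _ _).trans (le_max_right _ _)
  obtain ⟨col, hcolK⟩ := hcol (fun m => (s m).n) (fun m => (s m).X) (fun m => (s m).g)
    (fun m => (hgood m).deg) (fun m => (hgood m).girth) (fun m => (hgood m).size)
    (hN1.trans (hgood 0).g_le) (strictMono_nat_of_lt_succ hgstep)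
  set F : Fam q := ⟨fun m => (s m).n, fun m => (s m).X, col, fun m => (s m).g⟩ with hF
  have hexp : F.Expander D c e :=
    ⟨fun m => hN4.trans (hgood m).n_le, fun m => (hgood m).conn, fun m => (hgood m).deg, fun m => (hgood m).girth,
      fun m => (by norm_num : 0 < 2).trans_le (hN4.trans (hgood m).g_le), fun m => (hgood m).size, fun m => (hgood m).expand,
      fun m => (hgood m).sparse⟩
  have hcodes : ∀ m, ∃ C' C : Submodule (ZMod 2) (Fin (F.n m) → Alph (max k₀ q) q), C' ≤ C ∧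
      F.pat (max k₀ q) m ∈ C' ∧
      Module.finrank (ZMod 2) C = Module.finrank (ZMod 2) C' + 1 ∧
      CodeOnto d C' ∧ CodeDist e C ∧ Module.finrank (ZMod 2) C ≤ 3 * F.n m ∧
      2 * F.n m ≤ Module.finrank (ZMod 2) C' := fun m =>
    hcode (F.n m) (hN3.trans (hgood m).n_le) (F.pat (max k₀ q) m)
      fun x => colVec_ne_zero (le_max_right _ _) _
  choose C' C h1 h2 h3 h4 h5 h6 h7 using hcodes
  exact ⟨q, max k₀ q, D, c, e, d, max K₀ 20, F, C', C, le_max_right _ _, le_max_right _ _, he, hd,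
    hcolK, hexp, hg₁ q F c e hexp fun m => hN2.trans (hgood m).g_le, h1, h2, h3, h4, h5, h6, h7,
    hnstep⟩

end Vale.Agent.P089
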