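import Vale.Agent.P089.H499.Main

/-!
# P089: the groups are finitely generated (helper821)
-/

set_option autoImplicit false

namespace Vale.Agent.P089.Op

variable {q : ℕ} {F : Fam q} {K k : ℕ} (M : Monster F K) (C : Codes k F)

/-- The group `Γ = N ⋊ G` is finitely generated: by the letters of `G` and by the classes of the
functions supported at `1`. -/
theorem fg_Gam : Group.FG (Gam M C) := by
  classical
  rw [Group.fg_iff]
  refine ⟨Set.range (fun a : Letter q => (SemidirectProduct.inr (M.s a) : Gam M C)) ∪
    Set.range (fun a : Alph k q => (SemidirectProduct.inl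
      (Multiplicative.ofAdd (mkN M C (Finsupp.single 1 a))) : Gam M C)), ?_,
    (Set.finite_range _).union (Set.finite_range _)⟩
  set S := Subgroup.closure (Set.range (fun a : Letter q =>
      (SemidirectProduct.inr (M.s a) : Gam M C)) ∪
    Set.range (fun a : Alph k q => (SemidirectProduct.inl
      (Multiplicative.ofAdd (mkN M C (Finsupp.single 1 a))) : Gam M C))) with hS
  rw [eq_top_iff]
  intro γ _
  have hr : ∀ g : M.G, (SemidirectProduct.inr g : Gam M C) ∈ S := by
    intro g
    obtain ⟨w, rfl⟩ := M.gen g
    rw [map_list_prod]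
    refine Subgroup.list_prod_mem _ fun x hx => ?_
    rw [List.mem_map] at hx
    obtain ⟨y, hy, rfl⟩ := hx
    obtain ⟨a, -, rfl⟩ := List.mem_map.1 hy
    exact Subgroup.subset_closure (Or.inl ⟨a, rfl⟩)
  have hs : ∀ (g : M.G) (a : Alph k q), (SemidirectProduct.inl
      (Multiplicative.ofAdd (mkN M C (Finsupp.single g a))) : Gam M C) ∈ S := by
    intro g a
    have h1 : (SemidirectProduct.inl (Multiplicative.ofAdd (mkN M C (Finsupp.single 1 a))) :
        Gam M C) ∈ S := Subgroup.subset_closure (Or.inr ⟨a, rfl⟩)
    have h2 := S.mul_mem (S.mul_mem (hr g) h1) (hr g⁻¹)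
    rw [← SemidirectProduct.inl_aut] at h2
    have h3 : (actN M C g) (Multiplicative.ofAdd (mkN M C (Finsupp.single 1 a))) =
        Multiplicative.ofAdd (mkN M C (Finsupp.single g a)) := by
      have h4 := trN_mk M C g (Finsupp.single 1 a)
      rw [trF_single, mul_one] at h4
      exact congrArg Multiplicative.ofAdd h4
    rwa [h3] at h2
  have hl : ∀ f : M.G →₀ Alph k q, (SemidirectProduct.inl
      (Multiplicative.ofAdd (mkN M C f)) : Gam M C) ∈ S := by
    intro f
    induction f using Finsupp.induction with
    | zero => exact S.one_mem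
    | single_add g a f _ _ ih =>
      have h5 := S.mul_mem (hs g a) ih
      rw [← map_mul, ← ofAdd_add, ← mkN_add] at h5
      exact h5
  obtain ⟨f, hf⟩ := mkN_surj M C (Multiplicative.toAdd γ.left)
  have h1 := S.mul_mem (hl f) (hr γ.right)
  rw [hf] at h1
  have h2 : (SemidirectProduct.inl (Multiplicative.ofAdd (Multiplicative.toAdd γ.left)) : Gam M C) *
      SemidirectProduct.inr γ.right = γ := SemidirectProduct.inl_left_mul_inr_right γ
  rwa [h2] at h1

end Vale.Agent.P089.Op
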