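import Vale.Agent.P089.H499.Main

/-!
# P089: a countable group has only countably many traces of projections (helper821)
-/

set_option autoImplicit false

namespace Vale.Agent.P089.H821

open Vale.Agent.P086 Vale.Agent.P089.Op Vale.Agent.P089.Asm Vale.Agent.P089.Ind Filter
open scoped Topology

variable {G : Type} [Group G]

/-- the canonical trace is tracial on the reduced C*-algebra -/
theorem tau0_comm {a b : L2 G →L[ℂ] L2 G} (ha : a ∈ CstarR G) (hb : b ∈ CstarR G) :
    tau0 (a * b) = tau0 (b * a) := by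
  classical
  refine trace_cstarR tau0 (fun g h => ?_) a ha b hb
  rw [tau0_lam, tau0_lam]
  have : g * h = 1 ↔ h * g = 1 := mul_eq_one_comm
  by_cases h1 : g * h = 1
  · rw [if_pos h1, if_pos (this.1 h1)]
  · rw [if_neg h1, if_neg fun h2 => h1 (this.2 h2)]

/-- projections at distance less than `1` are similar -/
theorem near_aux {A : Type*} [NormedRing A] [StarRing A] [CStarRing A] [CompleteSpace A]
    (hone : ‖(1 : A)‖ ≤ 1) {P Q : A} (hPP : P * P = P) (hQQ : Q * Q = Q) (hPs : star P = P)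
    (h : ‖P - Q‖ < 1) : ∃ s : A, HasSum (fun i => ((P + P - 1) * (P - Q)) ^ i) s ∧
      (1 - (P + P - 1) * (P - Q)) * s = 1 ∧ s * (1 - (P + P - 1) * (P - Q)) = 1 ∧
      P * (1 - (P + P - 1) * (P - Q)) = (1 - (P + P - 1) * (P - Q)) * Q := by
  have hx1 : (P + P - 1) * (P + P - 1) = 1 := by
    have h1 : (P + P - 1) * (P + P - 1) =
        P * P + P * P + P * P + P * P - P - P - P - P + 1 := by noncomm_ring
    rw [h1, hPP]
    abel
  have hxn : ‖P + P - 1‖ ≤ 1 := by
    have h1 : ‖star (P + P - 1) * (P + P - 1)‖ = ‖P + P - 1‖ * ‖P + P - 1‖ :=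
      CStarRing.norm_star_mul_self
    rw [star_sub, star_add, hPs, star_one, hx1] at h1
    nlinarith [norm_nonneg (P + P - 1)]
  have hun : ‖(P + P - 1) * (P - Q)‖ < 1 := by
    refine (norm_mul_le _ _).trans_lt ?_
    nlinarith [norm_nonneg (P + P - 1), norm_nonneg (P - Q)]
  refine ⟨_, (summable_geometric_of_norm_lt_one hun).hasSum,
    mul_neg_geom_series _ hun, geom_series_mul_neg _ hun, ?_⟩
  have h1 : P * (1 - (P + P - 1) * (P - Q)) = P - (P * P) * (P + P) + (P * P) * (Q + Q) +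
      P * P - P * Q := by noncomm_ring
  have h2 : (1 - (P + P - 1) * (P - Q)) * Q = Q - (P * P) * (Q + Q) + (P + P) * (Q * Q) +
      P * Q - Q * Q := by noncomm_ring
  rw [h1, h2, hPP, hQQ]
  have h3 : P * (P + P) = P + P := by rw [mul_add, hPP]
  rw [h3]
  noncomm_ring

/-- projections at distance less than `1` have the same trace -/
theorem tau0_eq_of_near {P Q : L2 G →L[ℂ] L2 G} (hP : P ∈ CstarR G) (hQ : Q ∈ CstarR G)
    (hPP : P * P = P) (hQQ : Q * Q = Q) (hPs : IsSelfAdjoint P) (h : ‖P - Q‖ < 1) :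
    tau0 P = tau0 Q := by
  obtain ⟨s, hs, hz, hz', hPQ⟩ := near_aux (A := L2 G →L[ℂ] L2 G)
    ContinuousLinearMap.norm_id_le hPP hQQ hPs.star_eq h
  have hPr : P ∈ CrG G := mem_CrG.2 hP
  have hQr : Q ∈ CrG G := mem_CrG.2 hQ
  have hur : (P + P - 1) * (P - Q) ∈ CrG G :=
    mul_mem (sub_mem (add_mem hPr hPr) (one_mem _)) (sub_mem hPr hQr)
  have hsr : s ∈ CrG G := by
    have hclosed : IsClosed (CrG G : Set (L2 G →L[ℂ] L2 G)) := by
      rw [coe_CrG, CstarR]
      exact isClosed_closure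
    exact hclosed.mem_of_tendsto hs (Eventually.of_forall fun s =>
      sum_mem fun i _ => pow_mem hur i)
  generalize (P + P - 1) * (P - Q) = u at *
  have h1 : tau0 P = tau0 ((1 - u) * (Q * s)) := by
    rw [← mul_assoc, ← hPQ, mul_assoc, hz, mul_one]
  have h2 : tau0 ((1 - u) * (Q * s)) = tau0 ((Q * s) * (1 - u)) :=
    tau0_comm (mem_CrG.1 (sub_mem (one_mem _) hur)) (mem_CrG.1 (mul_mem hQr hsr))
  have h3 : (Q * s) * (1 - u) = Q := by rw [mul_assoc, hz', mul_one]
  rw [h1, h2, h3]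

/-- the reduced C*-algebra of a countable group is separable -/
theorem separable_cstarR [Countable G] : TopologicalSpace.IsSeparable (CstarR G) := by
  rw [CstarR, setOf_isLam]
  exact ((Set.countable_range _).isSeparable.span (R := ℂ)).closure

/-- the set of the traces of the projections of the reduced C*-algebra -/
theorem countable_traces [Countable G] :
    {x : ℝ | ∃ P ∈ CstarR G, P * P = P ∧ IsSelfAdjoint P ∧ ent P 1 1 = x}.Countable := by
  classical
  have hsep : TopologicalSpace.IsSeparable {P : L2 G →L[ℂ] L2 G | P ∈ CstarR G ∧ P * P = P ∧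
      IsSelfAdjoint P} := separable_cstarR.mono fun P hP => hP.1
  obtain ⟨t, hts, htc, htd⟩ := hsep.exists_countable_dense_subset
  have hent : ∀ P : L2 G →L[ℂ] L2 G, ent P 1 1 = tau0 P := fun P => by
    rw [tau0_apply, ent_dl]
  refine (htc.image fun P => (tau0 P).re).mono ?_
  rintro x ⟨P, hP, hPP, hPs, hx⟩
  obtain ⟨Q, hQt, hQ⟩ := Metric.mem_closure_iff.1 (htd ⟨hP, hPP, hPs⟩) 1 one_pos
  obtain ⟨hQ1, hQQ, hQs⟩ := hts hQt
  refine ⟨Q, hQt, ?_⟩
  rw [dist_eq_norm] at hQ
  beta_reduce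
  rw [← tau0_eq_of_near hP hQ1 hPP hQQ hPs hQ, ← hent, hx, Complex.ofReal_re]

/-- the traces pass to the groups which contain the group -/
theorem trace_mem_of_injective {Γ : Type} [Group Γ] {x : ℝ} (ι : G →* Γ)
    (hι : Function.Injective ι)
    (h : ∃ P ∈ CstarR G, P * P = P ∧ IsSelfAdjoint P ∧ ent P 1 1 = x) :
    ∃ P ∈ CstarR Γ, P * P = P ∧ IsSelfAdjoint P ∧ ent P 1 1 = x := by
  obtain ⟨P, hP, hPP, hPs, hx⟩ := h
  obtain ⟨Q, hQ, hQQ, hQs, hQP⟩ := exists_ind ι hι hP hPP hPs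
  refine ⟨Q, hQ, hQQ, hQs, ?_⟩
  rw [← hx, ← hQP, ent_cpr, map_one]

end Vale.Agent.P089.H821
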