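import Vale.Agent.P089.H821.Op
import Vale.Agent.P089.H821.Trace

/-!
# P089: continuum many counterexamples (helper821)
-/

set_option autoImplicit false

namespace Vale.Agent.P089.H821

open Vale.Agent.P089 Vale.Agent.P089.BC Vale.Agent.P086 Vale.Agent.P089.Op Vale.Agent.P089.Asm
open Module
open scoped InnerProductSpace Cardinal

/-- what the operator layer gives for the trace `x` -/
def Data (x : ℝ) (G : Type) [Group G] : Prop :=
  ∃ P ∈ Vale.Agent.P089.CstarR G, P * P = P ∧ IsSelfAdjoint P ∧ ent P 1 1 = x ∧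
    ∃ (len : G → ℕ) (κ : ℝ), Detect P len κ

/-- the family of the groups, indexed by the sets of natural numbers -/
theorem exists_family : ∃ x : Set ℕ → ℝ, Function.Injective x ∧ ∀ A, Liouville (x A) ∧
    ∃ (G : Type) (_ : Group G), Countable G ∧ Group.FG G ∧ Data (x A) G := by
  classical
  obtain ⟨q, k, D, c, e, d, K, F, C', C, hK, hqk, he, hd, hC, hE, hS, hle, hpat, hfin, honto,
    hdist, hub, hlb, hgr⟩ := family_fast expanderStatement colourStatement
  set c₀ : Set ℕ → Codes k F := fun A m => if m ∈ (fun a => 2 * a) '' A then C' m else C m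
    with hc₀
  have hn2 : ∀ m, 2 ≤ F.n m := hE.two
  have hgr4 : ∀ m, m + 4 * F.n m ≤ F.n (m + 1) := fun m => by
    have h1 := hgr m
    have h2 : 4 * F.n m ≤ 4 * (m + 4) * F.n m := by
      refine Nat.mul_le_mul_right _ ?_
      omega
    omega
  have hC1 : ∀ A m, C' m ≤ c₀ A m := by
    intro A m
    simp only [hc₀]
    split_ifs
    · exact le_rfl
    · exact hle m
  have hC2 : ∀ A m, c₀ A m ≤ C m := by
    intro A m
    simp only [hc₀]
    split_ifs
    · exact hle m
    · exact le_rfl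
  have hinf : ∀ A N, ∃ m ≥ N, c₀ A m = C m := by
    intro A N
    refine ⟨2 * N + 1, by omega, ?_⟩
    rw [hc₀]
    beta_reduce
    rw [if_neg]
    rintro ⟨a, -, ha⟩
    beta_reduce at ha
    omega
  have hdim : ∀ A m, finrank (ZMod 2) (c₀ A m) =
      if m ∈ (fun a => 2 * a) '' A then finrank (ZMod 2) (C' m) else finrank (ZMod 2) (C m) := by
    intro A m
    by_cases hm : m ∈ (fun a => 2 * a) '' A
    · rw [if_pos hm, show c₀ A m = C' m from if_pos hm]
    · rw [if_neg hm, show c₀ A m = C m from if_neg hm]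
  have hlo : ∀ A m, 2 * F.n m ≤ finrank (ZMod 2) (c₀ A m) := fun A m =>
    (hlb m).trans (Submodule.finrank_mono (hC1 A m))
  have hup : ∀ A m, finrank (ZMod 2) (c₀ A m) ≤ 3 * F.n m := fun A m =>
    (Submodule.finrank_mono (hC2 A m)).trans (hub m)
  have hstep : ∀ A m, finrank (ZMod 2) (c₀ A m) + 2 ≤ finrank (ZMod 2) (c₀ A (m + 1)) := by
    intro A m
    have h1 := hlo A (m + 1)
    have h2 := hup A m
    have h3 := hgr4 m
    have h4 := hn2 m
    omega
  refine ⟨fun A => ∑' m, (1 / 2 : ℝ) ^ finrank (ZMod 2) (c₀ A m), ?_, fun A => ⟨?_, ?_⟩⟩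
  · intro A B hAB
    have h1 := exponents_eq (a := fun m => finrank (ZMod 2) (c₀ A m))
      (b := fun m => finrank (ZMod 2) (c₀ B m)) (hstep A) (hstep B) hAB
    ext a
    have h2 : finrank (ZMod 2) (c₀ A (2 * a)) = finrank (ZMod 2) (c₀ B (2 * a)) :=
      congrFun h1 (2 * a)
    rw [hdim, hdim] at h2
    have hmem : ∀ S : Set ℕ, 2 * a ∈ (fun a => 2 * a) '' S ↔ a ∈ S := by
      intro S
      constructor
      · rintro ⟨b, hb, hab⟩
        beta_reduce at hab
        have : b = a := by omega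
        rwa [← this]
      · intro h
        exact ⟨a, h, rfl⟩
    simp only [hmem] at h2
    have h3 := hfin (2 * a)
    by_cases hA : a ∈ A
    · by_cases hB : a ∈ B
      · exact ⟨fun _ => hB, fun _ => hA⟩
      · rw [if_pos hA, if_neg hB] at h2
        omega
    · by_cases hB : a ∈ B
      · rw [if_neg hA, if_pos hB] at h2
        omega
      · exact ⟨fun h => absurd h hA, fun h => absurd h hB⟩
  · refine liouville (hstep A) ?_ fun m => ?_
    · have h1 := hlo A 0
      have h2 := hn2 0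
      omega
    · have h1 := hlo A (m + 1)
      have h2 := hup A m
      have h3 := hgr m
      have h4 := hn2 m
      have h5 : m * finrank (ZMod 2) (c₀ A m) ≤ m * (3 * F.n m) := Nat.mul_le_mul_left _ h2
      have h6 : 4 * (m + 4) * F.n m = m * (3 * F.n m) + m * F.n m + 16 * F.n m := by ring
      omega
  · obtain ⟨G, hG, h1, h2, P, hP, hPP, hPs, hx, len, κ, hD⟩ := opCodes hK hqk he hd hC hE hS
      hpat hfin honto hdist hub hlb hgr4 (hC1 A) (hC2 A) (hinf A)
    exact ⟨G, hG, h1, h2, P, hP, hPP, hPs, hx, len, κ, hD⟩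

/-- a countable group contains only countably many of the groups of the family -/
theorem countable_embed {x : Set ℕ → ℝ} (hx : Function.Injective x) (G : Set ℕ → Type)
    [∀ A, Group (G A)] (hG : ∀ A, Data (x A) (G A)) (Γ : Type) [Group Γ] [Countable Γ] :
    {A | ∃ ι : G A →* Γ, Function.Injective ι}.Countable := by
  refine ((countable_traces (G := Γ)).preimage_of_injOn (f := x) hx.injOn).mono ?_
  rintro A ⟨ι, hι⟩
  obtain ⟨P, hP, hPP, hPs, h1, -⟩ := hG A
  exact trace_mem_of_injective ι hι ⟨P, hP, hPP, hPs, h1⟩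

/-- as many pairwise non-isomorphic groups as there are real numbers -/
theorem exists_embedding (G : Set ℕ → Type) [∀ A, Group (G A)]
    (h : ∀ A, {B | Nonempty (G B ≃* G A)}.Countable) :
    ∃ f : ℝ → Set ℕ, Function.Injective f ∧
      ∀ r s, Nonempty (G (f r) ≃* G (f s)) → r = s := by
  classical
  let S : Setoid (Set ℕ) := ⟨fun A B => Nonempty (G A ≃* G B), fun A => ⟨MulEquiv.refl _⟩,
    fun ⟨e⟩ => ⟨e.symm⟩, fun ⟨e⟩ ⟨f⟩ => ⟨e.trans f⟩⟩
  have h1 : #(Set ℕ) ≤ #(Quotient S) * ℵ₀ := by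
    refine Cardinal.mk_le_mk_mul_of_mk_preimage_le (Quotient.mk S) fun b => ?_
    obtain ⟨A, rfl⟩ := Quotient.exists_rep b
    rw [Cardinal.mk_le_aleph0_iff]
    refine ((h A).mono ?_).to_subtype
    intro B hB
    exact Quotient.exact hB
  have h2 : 𝔠 ≤ #(Quotient S) := by
    by_contra hlt
    rw [not_le] at hlt
    have h3 : #(Quotient S) * ℵ₀ < 𝔠 :=
      Cardinal.mul_lt_of_lt Cardinal.aleph0_le_continuum hlt Cardinal.aleph0_lt_continuum
    rw [Cardinal.mk_set, Cardinal.mk_nat, Cardinal.two_power_aleph0] at h1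
    exact absurd h1 (not_le.2 h3)
  rw [← Cardinal.mk_real] at h2
  obtain ⟨g⟩ := Cardinal.le_def _ _ |>.1 h2
  have h4 : ∀ r s, Nonempty (G (g r).out ≃* G (g s).out) → r = s := by
    intro r s hrs
    apply g.injective
    rw [← Quotient.out_eq (g r), ← Quotient.out_eq (g s)]
    exact Quotient.sound hrs
  refine ⟨fun r => (g r).out, fun r s hrs => h4 r s ?_, h4⟩
  beta_reduce at hrs
  rw [hrs]
  exact ⟨MulEquiv.refl _⟩

end Vale.Agent.P089.H821

namespace Vale.Agent.P089.BC

open scoped InnerProductSpace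
open Vale.Agent.P089.Asm Vale.Agent.P089.Ind Vale.Agent.P086 Vale.Agent.P089.H821

/-- Continuum many pairwise non-isomorphic finitely generated counterexamples. -/
theorem final_many : ∃ (G : ℝ → Type) (_ : ∀ r, Group (G r)) (x : ℝ → ℝ), Function.Injective x ∧
    (∀ r s, r ≠ s → IsEmpty (G r ≃* G s)) ∧
    (∀ (Γ : Type) [Group Γ] [Countable Γ],
      {r | ∃ ι : G r →* Γ, Function.Injective ι}.Countable) ∧
    ∀ r, Countable (G r) ∧ Group.FG (G r) ∧ Transcendental ℚ (x r) ∧ Liouville (x r) ∧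
      (∃ p : ℕ → G r →₀ ℚ, IsPlacement p) ∧
      ∀ (H : Type) [NormedAddCommGroup H] [InnerProductSpace ℂ H] [CompleteSpace H]
        (E : Type) [NormedAddCommGroup E] [InnerProductSpace ℂ E] [CompleteSpace E]
        (b : HilbertBasis (G r) ℂ H) (c : HilbertBasis (G r × ℕ) ℂ E),
        (∀ p : ℕ → G r →₀ ℚ, IsPlacement p → ¬ AssemblySurjective b c p) ∧
        ∃ P ∈ CstarR b, P * P = P ∧ IsSelfAdjoint P ∧ ⟪b 1, P (b 1)⟫_ℂ = x r ∧
          ∀ p : ℕ → G r →₀ ℚ, IsPlacement p → ∀ m : ℕ, 1 ≤ m →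
            ¬ InImage b c p (Matrix.diagonal fun _ : Fin m => P) := by
  classical
  obtain ⟨x, hx, hfam⟩ := exists_family
  choose hL G hG hc hfg hD using hfam
  have hemb : ∀ (Γ : Type) [Group Γ] [Countable Γ],
      {A | ∃ ι : G A →* Γ, Function.Injective ι}.Countable := fun Γ _ _ =>
    countable_embed hx G hD Γ
  obtain ⟨f, hf, hiso⟩ := exists_embedding G fun A => by
    have := hc A
    refine (hemb (G A)).mono ?_
    rintro B ⟨e⟩
    exact ⟨e.toMonoidHom, e.injective⟩
  refine ⟨fun r => G (f r), fun r => hG (f r), fun r => x (f r), fun r s h => hf (hx h),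
    fun r s hrs => ⟨fun e => hrs (hiso r s ⟨e⟩)⟩, fun Γ _ _ =>
      (hemb Γ).preimage_of_injOn (f := f) hf.injOn, fun r => ?_⟩
  have := hc (f r)
  obtain ⟨P, hP, hPP, hPs, h1, len, κ, hDet⟩ := hD (f r)
  refine ⟨hc _, hfg _, ?_, hL _, Vale.Agent.P089.exists_placement _, ?_⟩
  · exact fun h => (hL (f r)).transcendental ((IsFractionRing.isAlgebraic_iff ℤ ℚ ℝ).2 h)
  · intro H _ _ _ E _ _ _ b c
    have hno : ∀ p : ℕ → G (f r) →₀ ℚ, IsPlacement p → ∀ m : ℕ, 1 ≤ m →
        ¬ InImage b c p (Matrix.diagonal fun _ : Fin m => toH b P) := fun p hp m hm =>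
      hDet.not_inImage hP hPP b c hp m hm
    refine ⟨fun p hp hsurj => hno p hp 1 le_rfl (hsurj 1 _ (fun j k => ?_) ?_), toH b P,
      toH_mem b hP, by rw [← map_mul, hPP], hPs.map (toH b), ?_, hno⟩
    · rw [Subsingleton.elim j k, Matrix.diagonal_apply_eq]
      exact toH_mem b hP
    · rw [Matrix.diagonal_mul_diagonal]
      simp only [← map_mul, hPP]
    · rw [inner_toH, h1]

end Vale.Agent.P089.BC
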