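import Mathlib

/-!
# P089: lacunary binary series (helper821)
-/

set_option autoImplicit false

namespace Vale.Agent.P089.H821

/-- the steps add up -/
theorem step_le {d : ℕ → ℕ} (hd : ∀ m, d m + 2 ≤ d (m + 1)) (m j : ℕ) : d m + 2 * j ≤ d (m + j) := by
  induction j with
  | zero => simp
  | succ j ih =>
    have h1 := hd (m + j)
    have h2 : m + (j + 1) = m + j + 1 := by ring
    rw [h2]
    omega

/-- summability -/
theorem summable_half {d : ℕ → ℕ} (hd : ∀ m, d m + 2 ≤ d (m + 1)) :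
    Summable fun m => (1 / 2 : ℝ) ^ (d m) := by
  refine Summable.of_nonneg_of_le (fun m => by positivity) (fun m => ?_)
    (summable_geometric_of_lt_one (by norm_num : (0 : ℝ) ≤ 1 / 2) (by norm_num))
  refine pow_le_pow_of_le_one (by norm_num) (by norm_num) ?_
  have := step_le hd 0 m
  rw [zero_add] at this
  omega

/-- bounds for the sum in terms of the first exponent -/
theorem tsum_bounds {d : ℕ → ℕ} (hd : ∀ m, d m + 2 ≤ d (m + 1)) :
    (1 / 2 : ℝ) ^ (d 0) < ∑' m, (1 / 2 : ℝ) ^ (d m) ∧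
      ∑' m, (1 / 2 : ℝ) ^ (d m) < 2 * (1 / 2 : ℝ) ^ (d 0) := by
  have hs := summable_half hd
  constructor
  · have h1 := hs.sum_add_tsum_nat_add 1
    rw [Finset.sum_range_one] at h1
    have h2 : 0 < ∑' i, (1 / 2 : ℝ) ^ (d (i + 1)) :=
      ((summable_nat_add_iff (f := fun i => (1 / 2 : ℝ) ^ (d i)) 1).2 hs).tsum_pos
        (fun i => by positivity) 0 (by positivity)
    linarith
  · have h1 : ∀ i, (1 / 2 : ℝ) ^ (d i) ≤ (1 / 2) ^ (d 0) * (1 / 4) ^ i := by
      intro i
      have e : (1 / 4 : ℝ) ^ i = (1 / 2) ^ (2 * i) := by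
        rw [pow_mul]
        norm_num
      rw [e, ← pow_add]
      refine pow_le_pow_of_le_one (by norm_num) (by norm_num) ?_
      have := step_le hd 0 i
      rwa [zero_add] at this
    have h2 : Summable fun i : ℕ => (1 / 2 : ℝ) ^ (d 0) * (1 / 4) ^ i :=
      (summable_geometric_of_lt_one (by norm_num) (by norm_num)).mul_left _
    have h3 : ∑' m, (1 / 2 : ℝ) ^ (d m) ≤ (1 / 2 : ℝ) ^ (d 0) * (1 - 1 / 4)⁻¹ := by
      calc ∑' m, (1 / 2 : ℝ) ^ (d m) ≤ ∑' i : ℕ, (1 / 2 : ℝ) ^ (d 0) * (1 / 4) ^ i :=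
            hs.tsum_le_tsum h1 h2
        _ = _ := by rw [tsum_mul_left, tsum_geometric_of_lt_one (by norm_num) (by norm_num)]
    have h4 : (0 : ℝ) < (1 / 2 : ℝ) ^ (d 0) := by positivity
    refine h3.trans_lt ?_
    rw [mul_comm 2]
    refine mul_lt_mul_of_pos_left ?_ h4
    norm_num

/-- the sum determines the first exponent -/
theorem first_eq {a b : ℕ → ℕ} (ha : ∀ m, a m + 2 ≤ a (m + 1)) (hb : ∀ m, b m + 2 ≤ b (m + 1))
    (h : ∑' m, (1 / 2 : ℝ) ^ (a m) = ∑' m, (1 / 2 : ℝ) ^ (b m)) : a 0 = b 0 := by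
  have key : ∀ {a b : ℕ → ℕ}, (∀ m, a m + 2 ≤ a (m + 1)) → (∀ m, b m + 2 ≤ b (m + 1)) →
      ∑' m, (1 / 2 : ℝ) ^ (a m) = ∑' m, (1 / 2 : ℝ) ^ (b m) → ¬ a 0 < b 0 := by
    intro a b ha hb h hlt
    have h1 := (tsum_bounds ha).1
    have h2 := (tsum_bounds hb).2
    have h3 : 2 * (1 / 2 : ℝ) ^ (b 0) ≤ (1 / 2 : ℝ) ^ (a 0) := by
      calc 2 * (1 / 2 : ℝ) ^ (b 0) ≤ 2 * (1 / 2 : ℝ) ^ (a 0 + 1) := by
            refine mul_le_mul_of_nonneg_left ?_ (by norm_num)
            exact pow_le_pow_of_le_one (by norm_num) (by norm_num) hlt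
        _ = _ := by rw [pow_succ]; ring
    linarith
  exact le_antisymm (not_lt.1 (key hb ha h.symm)) (not_lt.1 (key ha hb h))

/-- the sum determines all exponents -/
theorem exponents_eq {a b : ℕ → ℕ} (ha : ∀ m, a m + 2 ≤ a (m + 1))
    (hb : ∀ m, b m + 2 ≤ b (m + 1))
    (h : ∑' m, (1 / 2 : ℝ) ^ (a m) = ∑' m, (1 / 2 : ℝ) ^ (b m)) : a = b := by
  have h1 : ∀ m, ∑' i, (1 / 2 : ℝ) ^ (a (i + m)) = ∑' i, (1 / 2 : ℝ) ^ (b (i + m)) := by
    intro m
    induction m with
    | zero => exact h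
    | succ m ih =>
      have ha' : ∀ i, a (i + m) + 2 ≤ a (i + 1 + m) := fun i => by
        have := ha (i + m)
        rwa [show i + m + 1 = i + 1 + m by ring] at this
      have hb' : ∀ i, b (i + m) + 2 ≤ b (i + 1 + m) := fun i => by
        have := hb (i + m)
        rwa [show i + m + 1 = i + 1 + m by ring] at this
      have h2 := first_eq (a := fun i => a (i + m)) (b := fun i => b (i + m)) ha' hb' ih
      have h3 := (summable_half (d := fun i => a (i + m)) ha').sum_add_tsum_nat_add 1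
      have h4 := (summable_half (d := fun i => b (i + m)) hb').sum_add_tsum_nat_add 1
      rw [Finset.sum_range_one] at h3 h4
      beta_reduce at h2 h3 h4
      have h5 : ∀ i, i + (m + 1) = i + 1 + m := fun i => by ring
      simp only [h5]
      rw [h2] at h3
      linarith
  funext m
  have ha' : ∀ i, a (i + m) + 2 ≤ a (i + 1 + m) := fun i => by
    have := ha (i + m)
    rwa [show i + m + 1 = i + 1 + m by ring] at this
  have hb' : ∀ i, b (i + m) + 2 ≤ b (i + 1 + m) := fun i => by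
    have := hb (i + m)
    rwa [show i + m + 1 = i + 1 + m by ring] at this
  have h2 := first_eq (a := fun i => a (i + m)) (b := fun i => b (i + m)) ha' hb' (h1 m)
  simpa using h2

/-- very lacunary binary series are Liouville numbers -/
theorem liouville {d : ℕ → ℕ} (hd : ∀ m, d m + 2 ≤ d (m + 1)) (h1 : 1 ≤ d 0)
    (hfast : ∀ m, m * d m + 1 ≤ d (m + 1)) :
    Liouville (∑' m, (1 / 2 : ℝ) ^ (d m)) := by
  intro n
  have hs := summable_half hd
  have hge : ∀ m, 1 ≤ d m := by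
    intro m
    have := step_le hd 0 m
    rw [zero_add] at this
    omega
  have hmono : ∀ i ≤ n, d i ≤ d n := by
    intro i hi
    have := step_le hd i (n - i)
    rw [Nat.add_sub_cancel' hi] at this
    omega
  have hd' : ∀ i, d (i + (n + 1)) + 2 ≤ d (i + 1 + (n + 1)) := fun i => by
    have := hd (i + (n + 1))
    rwa [show i + (n + 1) + 1 = i + 1 + (n + 1) by ring] at this
  have hsplit := hs.sum_add_tsum_nat_add (n + 1)
  obtain ⟨t1, t2⟩ := tsum_bounds (d := fun i => d (i + (n + 1))) hd'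
  beta_reduce at t1 t2
  rw [zero_add] at t1 t2
  set tail : ℝ := ∑' i, (1 / 2 : ℝ) ^ (d (i + (n + 1))) with htail
  have hpow : (0 : ℝ) < 2 ^ d n := by positivity
  have hval : ∑ i ∈ Finset.range (n + 1), (1 / 2 : ℝ) ^ (d i) =
      ((∑ i ∈ Finset.range (n + 1), (2 : ℤ) ^ (d n - d i) : ℤ) : ℝ) / (((2 : ℤ) ^ d n : ℤ) : ℝ) := by
    rw [eq_div_iff (by push_cast; exact hpow.ne'), Finset.sum_mul]
    push_cast
    refine Finset.sum_congr rfl fun i hi => ?_
    have hi' : d i ≤ d n := hmono i (Nat.lt_succ_iff.1 (Finset.mem_range.1 hi))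
    rw [one_div, inv_pow, inv_mul_eq_div, div_eq_iff (by positivity), ← pow_add,
      Nat.sub_add_cancel hi']
  refine ⟨∑ i ∈ Finset.range (n + 1), (2 : ℤ) ^ (d n - d i), (2 : ℤ) ^ d n, ?_, ?_, ?_⟩
  · exact one_lt_pow₀ (by norm_num) (by have := hge n; omega)
  · rw [← hval, ← hsplit]
    have : 0 < tail := lt_trans (by positivity) t1
    intro h
    linarith
  · rw [← hval, ← hsplit, add_sub_cancel_left]
    have h0 : 0 < tail := lt_trans (by positivity) t1
    rw [abs_of_pos h0]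
    refine t2.trans_le ?_
    push_cast
    rw [← pow_mul]
    have h2 : n * d n + 1 ≤ d (n + 1) := hfast n
    calc 2 * (1 / 2 : ℝ) ^ d (n + 1) ≤ 2 * (1 / 2 : ℝ) ^ (n * d n + 1) := by
          refine mul_le_mul_of_nonneg_left ?_ (by norm_num)
          exact pow_le_pow_of_le_one (by norm_num) (by norm_num) h2
      _ = (1 / 2 : ℝ) ^ (d n * n) := by rw [pow_succ, mul_comm n]; ring
      _ = _ := by rw [one_div, inv_pow, one_div]

end Vale.Agent.P089.H821
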