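import Vale.Agent.P089.H821.Fam
import Vale.Agent.P089.H821.Num
import Vale.Agent.P089.H821.Gen

/-!
# P089: the groups of the code families between `C'` and `C` (helper821)
-/

set_option autoImplicit false

namespace Vale.Agent.P089

open Vale.Agent.P086 Vale.Agent.P089.Op Vale.Agent.P089.BC Filter Module
open scoped InnerProductSpace ComplexOrder Topology

/-- For every family of codes `C₀` between `C'` and `C`, infinitely often equal to `C`: the group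
of `C₀`, its projection, the trace, and the data which detect its class in the quotient of
`K_0` by the image of the assembly map. -/
theorem opCodes {q k D c e d K : ℕ} {F : Fam q} {C' C C₀ : Codes k F} (hK : 20 ≤ K) (hqk : q ≤ k)
    (he : 0 < e) (hd : 0 < d) (hC : F.Coloured K) (hE : F.Expander D c e)
    (hS : F.SmallSets K (8 * d)) (hpat' : ∀ m, F.pat k m ∈ C' m)
    (hfin : ∀ m, finrank (ZMod 2) (C m) = finrank (ZMod 2) (C' m) + 1)
    (honto' : ∀ m, CodeOnto d (C' m)) (hdist' : ∀ m, CodeDist e (C m))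
    (hub' : ∀ m, finrank (ZMod 2) (C m) ≤ 3 * F.n m)
    (hlb' : ∀ m, 2 * F.n m ≤ finrank (ZMod 2) (C' m))
    (hgr : ∀ m, m + 4 * F.n m ≤ F.n (m + 1))
    (h0 : ∀ m, C' m ≤ C₀ m) (h0' : ∀ m, C₀ m ≤ C m) (hinf : ∀ N, ∃ m ≥ N, C₀ m = C m) :
    ∃ (G : Type) (_ : Group G), Countable G ∧ Group.FG G ∧
      ∃ P ∈ Vale.Agent.P089.CstarR G, P * P = P ∧ IsSelfAdjoint P ∧
        ent P 1 1 = ((∑' m, (1 / 2 : ℝ) ^ finrank (ZMod 2) (C₀ m) : ℝ) : ℂ) ∧
        ∃ (len : G → ℕ) (κ : ℝ), Detect P len κ := by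
  classical
  obtain ⟨M⟩ := monster glStatement q F K D c e (by omega) hC hE
  obtain ⟨hinj, hsinj, hsne, -⟩ := injStatement q F K D c e M hK hC hE
  have hord := orderStatement q F K D c e M hK hC hE
  have hn0 : ∀ m, 0 < F.n m := fun m => by have := hE.two m; omega
  have hmono : StrictMono F.n := strictMono_nat_of_lt_succ fun m => by
    have h1 := hgr m
    have h2 := hn0 m
    omega
  have hontoC : ∀ m, CodeOnto d (C₀ m) := by
    intro m B hB f
    obtain ⟨v, hv, hvf⟩ := honto' m B hB f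
    exact ⟨v, h0 m hv, hvf⟩
  have hpatC : ∀ m, F.pat k m ∈ C₀ m := fun m => h0 m (hpat' m)
  have hdist : ∀ m, CodeDist e (C₀ m) := fun m u hu hu0 => hdist' m u (h0' m hu) hu0
  have hlb : ∀ m, 2 * F.n m ≤ finrank (ZMod 2) (C₀ m) := fun m =>
    (hlb' m).trans (Submodule.finrank_mono (h0 m))
  have hub : ∀ m, finrank (ZMod 2) (C₀ m) ≤ 3 * F.n m := fun m =>
    (Submodule.finrank_mono (h0' m)).trans (hub' m)
  obtain ⟨hs1, hs2⟩ := Conf.restrictStatement q F K M k d C₀ hd hinj hord hS hn0 hontoC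
  obtain ⟨ε, B, hfd⟩ := exists_fibData (keyStatement injStatement orderStatement) gapStatement
    admissibleStatement (D := D) he hqk
  obtain ⟨T, P, hD⟩ := hfd M C₀ hK hC hE hdist hpatC hinj hsinj hsne
  obtain ⟨Q, hQmem, hQQ, hQs, hQlim⟩ := hD.exists_Q hs1
  have hr0 : Tendsto (fun j : ℕ => (1 - ε) ^ j) atTop (𝓝 0) :=
    tendsto_pow_atTop_nhds_zero_of_lt_one (by linarith only [hD.eps_le]) (by linarith only [hD.eps_pos])
  have hperf : ∀ (χ : NN M C₀ →+ ZMod 2) m h,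
      M.Perfect (fun x => decode (conf M C₀ χ x)) m h ↔
        ∀ y, conf M C₀ χ (h * M.pos m y) = F.pat k m y := by
    intro χ m h
    exact forall_congr' fun y => decode_pat_iff hqk F m y _
  set w : (NN M C₀ →+ ZMod 2) → ℂ := fun χ => P (conf M C₀ χ) (dl 1) 1 with hw
  have hw1 : ∀ (χ : NN M C₀ →+ ZMod 2) m h y, (1 : M.G) = h * M.pos m y →
      M.Perfect (fun x => decode (conf M C₀ χ x)) m h → w χ = (F.n m : ℂ)⁻¹ := by
    intro χ m h y hy hp
    rw [hw, ← one_div]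
    exact hD.perfect _ (hs1 _ (conf_mem M C₀ χ)) m h y hy ((hperf χ m h).1 hp)
  have hw0 : ∀ χ : NN M C₀ →+ ZMod 2, (∀ m h y, (1 : M.G) = h * M.pos m y →
      ¬ M.Perfect (fun x => decode (conf M C₀ χ x)) m h) → w χ = 0 := by
    intro χ hp
    exact hD.imperfect _ (hs1 _ (conf_mem M C₀ χ)) fun m h y hy hp' =>
      hp m h y hy ((hperf χ m h).2 hp')
  have hst : ∀ (χ : NN M C₀ →+ ZMod 2) (j : ℕ),
      ‖⟪dl (1 : M.G), fibA (actN M C₀) χ (elB M C₀ B ^ j) (dl 1)⟫_ℂ - w χ‖ ≤ (1 - ε) ^ j :=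
    fun χ j => hD.state_le hs1 χ j
  have hdm : ∀ m, m ≤ finrank (ZMod 2) (C₀ m) := by
    intro m
    have h1 := hmono.le_apply (x := m)
    have h2 := hlb m
    omega
  refine ⟨Gam M C₀, inferInstance, countable_Gam M C₀, fg_Gam M C₀, Q, mem_CrG.1 hQmem, hQQ, hQs,
    ?_, lenG M C₀, ((4 * d * (k + q) : ℕ) : ℝ), lenG_one M C₀, lenG_mul M C₀, ?_⟩
  · have h1 := trace_conf_real M hqk (by omega) hC hE hmono hpatC hs1 hs2 hdm
      (fun j => elB M C₀ B ^ j) Q hQlim w _ hr0 hst hw1 hw0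
    rw [← h1, trc, inner_dl]
    rfl
  · intro L₀
    -- choose the type
    obtain ⟨m₁, hm₁', hm₁C⟩ := hinf (2 * d * (L₀ + 1))
    have hm₁ : 2 * d * (L₀ + 1) ≤ F.n m₁ := hm₁'.trans hmono.le_apply
    have hL : L₀ ≤ F.n m₁ / (2 * d) := by
      rw [Nat.le_div_iff_mul_le (by omega)]
      nlinarith only [hm₁]
    have h2d : 2 * d ≤ F.n m₁ := by nlinarith only [hm₁]
    refine ⟨F.n m₁ / (2 * d), hL, ?_⟩
    set C₁ : Codes k F := fun m => if m = m₁ then C' m else C₀ m with hC₁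
    have hC₁m : C₁ m₁ = C' m₁ := by simp [hC₁]
    have hC₁n : ∀ m, m ≠ m₁ → C₁ m = C₀ m := fun m hm => by simp [hC₁, hm]
    have hC₁le : ∀ m, C₁ m ≤ C₀ m := by
      intro m
      by_cases hm : m = m₁
      · rw [hm, hC₁m]; exact h0 m₁
      · rw [hC₁n m hm]
    have hpat₁ : ∀ m, F.pat k m ∈ C₁ m := by
      intro m
      by_cases hm : m = m₁
      · rw [hm, hC₁m]; exact hpat' m₁
      · rw [hC₁n m hm]; exact hpatC m
    have honto₁ : ∀ m, CodeOnto d (C₁ m) := by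
      intro m
      by_cases hm : m = m₁
      · rw [hm, hC₁m]; exact honto' m₁
      · rw [hC₁n m hm]; exact hontoC m
    obtain ⟨hr1, hr2⟩ := Conf.restrictStatement q F K M k d C₁ hd hinj hord hS hn0 honto₁
    have hsup := Conf.supportStatement q F K M k d C₁ C₀ m₁ hd hinj hord hS hn0 honto₁ hC₁le hC₁n
    have hnorm := Nsub_normal M C₀ C₁
    obtain ⟨τ, hτn, hτ1, hτ0⟩ := exists_tau (Nsub M C₀ C₁) (Nsub_locFin M C₀ C₁)
    obtain ⟨t, htn, ht1, ht0, htc⟩ := exists_trdiff (Nsub M C₀ C₁) (Nsub_locFin M C₀ C₁)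
    refine ⟨t, htn, htc, fun g hg => t_lam_eq_zero M hC₁le (F.n m₁) d hsup t ht0 g hg, ?_⟩
    have h1 := trdiff_conf M hqk (by omega) hC hE hmono hC₁le m₁ hC₁n hpat₁ hr1 hr2 hs1 hs2
      τ tau0 (isTr_of_Nsub τ hτ1 hτ0) isTr_tau0 (fun j => elB M C₀ B ^ j) Q hQlim w _ hr0 hst
      hw1 hw0
    have h2 : t Q = τ Q - tau0 Q := by
      have h3 := eq_of_lam_eq t (τ - (tau0 : (L2 (Gam M C₀) →L[ℂ] L2 (Gam M C₀)) →L[ℂ] ℂ))
        (fun γ => ?_) (fun j => elB M C₀ B ^ j) Q hQlim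
      · rw [h3, sub_apply]
      rw [sub_apply, tau0_lam]
      by_cases hγ1 : γ = 1
      · rw [if_pos hγ1, ht0 γ (Or.inr hγ1), hγ1, hτ1 1 (Subgroup.one_mem _), sub_self]
      · by_cases hγ : γ ∈ Nsub M C₀ C₁
        · rw [if_neg hγ1, ht1 γ hγ hγ1, hτ1 γ hγ, sub_zero]
        · rw [if_neg hγ1, ht0 γ (Or.inl hγ), hτ0 γ hγ, sub_zero]
    rw [hC₁m, hm₁C] at h1
    exact exp_le_norm_diff (C m₁) (C' m₁) d hd h2d (hfin m₁) (t Q) (h2.trans h1)

end Vale.Agent.P089
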